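import Vale.Agent.P365.Bdl.B1

/-!
# P365, block Minami: Poisson comparison for `∑_{x ∈ B} b_x Im G_xx`

Potential `v_x = U_x + g_x c_x - i e_x`, `c_x` iid standard Cauchy, `e_x > 0`.
For `S = ∑_{x ∈ B} b_x Im G_xx` with `0 ≤ b_x ≤ e_x`:
* a real shift of one potential changes `S` by at most `1`;
* `E[Im G_xx Φ(S)] ≤ g_x⁻¹ E Φ(S + 1)` for `Φ` monotone, nonnegative;
* so the moments of `S` are at most those of a Poisson variable of mean `∑_{x ∈ B} b_x / g_x`.
-/

namespace P365L.Poi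

open MeasureTheory ProbabilityTheory Complex
open scoped ENNReal NNReal Real

variable {ι : Type*}

/-- potential with background `U`, noise scales `g`, absorptions `e` -/
noncomputable def Wc (U g e : ι → ℝ) (c : ι → ℝ) (x : ι) : ℂ :=
  (U x : ℂ) + (g x : ℂ) * (c x : ℂ) - (e x : ℂ) * I

theorem Wc_im (U g e c : ι → ℝ) (x : ι) : (Wc U g e c x).im = -e x := by
  unfold Wc; simp

theorem Wc_update [DecidableEq ι] (U g e c : ι → ℝ) (x : ι) (t : ℝ) :
    Wc U g e (Function.update c x t) =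
      Function.update (Wc U g e c) x (Wc U g e c x + ((g x * (t - c x) : ℝ) : ℂ)) := by
  funext y
  by_cases h : y = x
  · subst h
    rw [Function.update_self]
    unfold Wc
    rw [Function.update_self]
    push_cast
    ring
  · rw [Function.update_of_ne h]
    unfold Wc
    rw [Function.update_of_ne h]

variable [Fintype ι] [DecidableEq ι]

/-- the Green matrix -/
noncomputable def Gc (A : Matrix ι ι ℝ) (U g e c : ι → ℝ) : Matrix ι ι ℂ := Gr A (Wc U g e c)

variable {A : Matrix ι ι ℝ} {U g e : ι → ℝ}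

theorem Gc_symm (hA : A.IsSymm) (c : ι → ℝ) (x y : ι) : Gc A U g e c x y = Gc A U g e c y x :=
  Gr_symm hA x y

theorem measurable_Gc (x y : ι) : Measurable fun c => Gc A U g e c x y := by
  refine measurable_Gr (fun c => Wc U g e c) (fun z => ?_) x y
  unfold Wc
  exact (((Complex.measurable_ofReal.comp (measurable_pi_apply z)).const_mul _).const_add _).sub_const _

/-- Ward identity -/
theorem ward (hA : A.IsSymm) (he : ∀ x, 0 < e x) (c : ι → ℝ) (x : ι) :
    (Gc A U g e c x x).im = ∑ y, e y * ‖Gc A U g e c y x‖ ^ 2 := by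
  have h := Gr_flux (W := Wc U g e c) hA (fun y => by rw [Wc_im]; linarith [he y]) x
  unfold Gc
  rw [h]
  refine Finset.sum_congr rfl fun y _ => ?_
  rw [Wc_im, neg_neg]

theorem diag_ne_zero (hA : A.IsSymm) (he : ∀ x, 0 < e x) (c : ι → ℝ) (x : ι) :
    Gc A U g e c x x ≠ 0 := by
  intro h0
  have h1 : 0 = ∑ y, e y * ‖Gc A U g e c y x‖ ^ 2 := by
    rw [← ward hA he c x, h0]; simp
  have h2 := (Finset.sum_eq_zero_iff_of_nonneg
    (fun y _ => mul_nonneg (he y).le (sq_nonneg _))).1 h1.symm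
  have h3 := Kmat_mulVec_Gr (W := Wc U g e c) hA (fun y => by rw [Wc_im]; linarith [he y]) x x
  have h4 : (fun z => Gr A (Wc U g e c) z x) = 0 := by
    funext y
    have h5 := (mul_eq_zero.1 (h2 y (Finset.mem_univ y))).resolve_left (he y).ne'
    simpa [Gc] using h5
  rw [h4, Matrix.mulVec_zero, if_pos rfl] at h3
  exact zero_ne_one h3

theorem im_pos (hA : A.IsSymm) (he : ∀ x, 0 < e x) (c : ι → ℝ) (x : ι) :
    0 < (Gc A U g e c x x).im := by
  rw [ward hA he c x]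
  have h : 0 < e x * ‖Gc A U g e c x x‖ ^ 2 :=
    mul_pos (he x) (pow_pos (norm_pos_iff.2 (diag_ne_zero hA he c x)) 2)
  exact h.trans_le (Finset.single_le_sum (f := fun y => e y * ‖Gc A U g e c y x‖ ^ 2)
    (fun y _ => mul_nonneg (he y).le (sq_nonneg _)) (Finset.mem_univ x))

/-- rank one update under a real shift -/
theorem update (hA : A.IsSymm) (he : ∀ x, 0 < e x) (c : ι → ℝ) (z : ι) (t : ℝ) :
    1 + ((g z * (t - c z) : ℝ) : ℂ) * Gc A U g e c z z ≠ 0 ∧
    ∀ x y, Gc A U g e (Function.update c z t) x y = Gc A U g e c x y -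
      Gc A U g e c x z * Gc A U g e c z y *
        (((g z * (t - c z) : ℝ) : ℂ) / (1 + ((g z * (t - c z) : ℝ) : ℂ) * Gc A U g e c z z)) := by
  have h := Gr_update (W := Wc U g e c) hA (fun y => by rw [Wc_im]; linarith [he y]) z
    ((g z * (t - c z) : ℝ) : ℂ) (by
      rw [Complex.add_im, Wc_im, Complex.ofReal_im]; linarith [he z])
  unfold Gc
  rw [Wc_update]
  exact h

/-- a real shift of one potential changes `∑_{y∈B} b_y Im G_yy` by at most one -/
theorem shift_le_one (hA : A.IsSymm) (he : ∀ x, 0 < e x) {b : ι → ℝ} (hb : ∀ x, 0 ≤ b x)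
    (hbe : ∀ x, b x ≤ e x) (B : Finset ι) (c : ι → ℝ) (z : ι) (t : ℝ) :
    |(∑ y ∈ B, b y * (Gc A U g e (Function.update c z t) y y).im) -
      ∑ y ∈ B, b y * (Gc A U g e c y y).im| ≤ 1 := by
  obtain ⟨hne, hup⟩ := update (U := U) (g := g) hA he c z t
  set δ : ℝ := g z * (t - c z) with hδ
  set G := Gc A U g e c with hG
  have hm : 0 < (G z z).im := im_pos hA he c z
  set θ : ℂ := (δ : ℂ) / (1 + (δ : ℂ) * G z z) with hθ
  have hθ1 : ‖θ‖ * (G z z).im ≤ 1 := by
    rw [hθ, norm_div, Complex.norm_real, Real.norm_eq_abs, div_mul_eq_mul_div,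
      div_le_one (norm_pos_iff.2 hne)]
    have h1 : (1 + (δ : ℂ) * G z z).im = δ * (G z z).im := by simp
    calc |δ| * (G z z).im = |(1 + (δ : ℂ) * G z z).im| := by
          rw [h1, abs_mul δ (G z z).im, abs_of_pos hm]
      _ ≤ ‖1 + (δ : ℂ) * G z z‖ := Complex.abs_im_le_norm _
  rw [← Finset.sum_sub_distrib]
  have h2 : ∀ y ∈ B, |b y * (Gc A U g e (Function.update c z t) y y).im - b y * (G y y).im| ≤
      ‖θ‖ * (e y * ‖G y z‖ ^ 2) := by
    intro y _
    have h3 : (Gc A U g e (Function.update c z t) y y).im - (G y y).im =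
        -(G y z * G z y * θ).im := by
      rw [hup y y, Complex.sub_im]; ring
    rw [← mul_sub, h3, abs_mul, abs_of_nonneg (hb y), abs_neg]
    have h4 : |(G y z * G z y * θ).im| ≤ ‖G y z‖ ^ 2 * ‖θ‖ := by
      refine (Complex.abs_im_le_norm _).trans (le_of_eq ?_)
      have h5 : G z y = G y z := Gc_symm hA c z y
      rw [norm_mul, norm_mul, h5]
      ring
    calc b y * |(G y z * G z y * θ).im| ≤ e y * (‖G y z‖ ^ 2 * ‖θ‖) :=
          mul_le_mul (hbe y) h4 (abs_nonneg _) (he y).le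
      _ = ‖θ‖ * (e y * ‖G y z‖ ^ 2) := by ring
  calc |∑ y ∈ B, (b y * (Gc A U g e (Function.update c z t) y y).im - b y * (G y y).im)|
      ≤ ∑ y ∈ B, |b y * (Gc A U g e (Function.update c z t) y y).im - b y * (G y y).im| :=
        Finset.abs_sum_le_sum_abs _ _
    _ ≤ ∑ y ∈ B, ‖θ‖ * (e y * ‖G y z‖ ^ 2) := Finset.sum_le_sum h2
    _ ≤ ∑ y, ‖θ‖ * (e y * ‖G y z‖ ^ 2) :=
        Finset.sum_le_sum_of_subset_of_nonneg (Finset.subset_univ B)
          (fun y _ _ => mul_nonneg (norm_nonneg _) (mul_nonneg (he y).le (sq_nonneg _)))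
    _ = ‖θ‖ * (G z z).im := by rw [← Finset.mul_sum, ward hA he c z]
    _ ≤ 1 := hθ1

/-- diagonal entry after a real shift -/
theorem im_update (hA : A.IsSymm) (he : ∀ x, 0 < e x) (c : ι → ℝ) (z : ι) (t : ℝ) :
    (Gc A U g e (Function.update c z t) z z).im =
      (Gc A U g e c z z).im / ‖1 + ((g z * (t - c z) : ℝ) : ℂ) * Gc A U g e c z z‖ ^ 2 := by
  obtain ⟨hne, hup⟩ := update (U := U) (g := g) hA he c z t
  rw [hup z z]
  set δ : ℝ := g z * (t - c z) with hδ
  set w := Gc A U g e c z z with hw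
  have h1 : w - w * w * ((δ : ℂ) / (1 + (δ : ℂ) * w)) = w / (1 + (δ : ℂ) * w) := by
    rw [eq_div_iff hne, sub_mul, mul_assoc (w * w), div_mul_cancel₀ _ hne]
    ring
  rw [h1, Complex.div_im, ← Complex.normSq_eq_norm_sq]
  have h2 : (1 + (δ : ℂ) * w).re = 1 + δ * w.re := by simp
  have h3 : (1 + (δ : ℂ) * w).im = δ * w.im := by simp
  rw [h2, h3, ← sub_div]
  congr 1
  ring

/-- Cauchy density at most `1/π` -/
theorem nu_le_vol {f : ℝ → ℝ} (hf : ∀ t, 0 ≤ f t) (hi : Integrable f) :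
    ∫ t, f t ∂nu ≤ π⁻¹ * ∫ t, f t := by
  have h1 : nu = volume.withDensity (cauchyPDF 0 1) :=
    cauchyMeasure_of_scale_ne_zero 0 one_ne_zero
  rw [h1, integral_withDensity_eq_integral_toReal_smul (measurable_cauchyPDF 0 1)
    (Filter.Eventually.of_forall fun x => ENNReal.ofReal_lt_top), ← integral_const_mul]
  refine integral_mono_of_nonneg (Filter.Eventually.of_forall fun t => ?_) (hi.const_mul _)
    (Filter.Eventually.of_forall fun t => ?_)
  · exact smul_nonneg ENNReal.toReal_nonneg (hf t)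
  · simp only [smul_eq_mul]
    apply mul_le_mul_of_nonneg_right _ (hf t)
    rw [cauchyPDF, ENNReal.toReal_ofReal (cauchyPDF_pos 0 one_ne_zero t).le, cauchyPDFReal_def]
    simp only [NNReal.coe_one, mul_one, sub_zero, one_pow]
    have h3 : (t ^ 2 + 1)⁻¹ ≤ 1 := inv_le_one_of_one_le₀ (by nlinarith)
    calc π⁻¹ * (t ^ 2 + 1)⁻¹ ≤ π⁻¹ * 1 := mul_le_mul_of_nonneg_left h3 (by positivity)
      _ = π⁻¹ := mul_one _

/-- one-site spectral averaging: the Cauchy average of `Im G_zz` is at most `1/g_z` -/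
theorem one_site (hA : A.IsSymm) (he : ∀ x, 0 < e x) (c : ι → ℝ) {z : ι} (hg : 0 < g z) :
    ∫ t, (Gc A U g e (Function.update c z t) z z).im ∂nu ≤ 1 / g z := by
  set w := Gc A U g e c z z with hw
  have hm : 0 < w.im := im_pos hA he c z
  have hw0 : w ≠ 0 := diag_ne_zero hA he c z
  have hgc : (g z : ℂ) ≠ 0 := Complex.ofReal_ne_zero.2 hg.ne'
  set p : ℂ := (c z : ℂ) - ((g z : ℂ) * w)⁻¹ with hp
  have hns : 0 < ‖w‖ ^ 2 := pow_pos (norm_pos_iff.2 hw0) 2
  have hpim : p.im = w.im / (g z * ‖w‖ ^ 2) := by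
    have h2 : normSq w = ‖w‖ ^ 2 := (Complex.sq_norm w).symm
    rw [hp]
    simp only [mul_inv, sub_im, ofReal_im, mul_im, inv_re, ofReal_re, normSq_ofReal, inv_im, h2]
    field_simp
    ring
  have hpp : 0 < p.im := by rw [hpim]; positivity
  have hfun : ∀ t : ℝ, (Gc A U g e (Function.update c z t) z z).im =
      w.im / (g z ^ 2 * ‖w‖ ^ 2) * (‖(t : ℂ) - p‖ ^ 2)⁻¹ := by
    intro t
    rw [im_update hA he c z t]
    have h1 : 1 + ((g z * (t - c z) : ℝ) : ℂ) * w = (g z : ℂ) * w * ((t : ℂ) - p) := by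
      rw [hp]
      push_cast
      field_simp
      ring
    rw [h1, norm_mul, norm_mul, Complex.norm_real, Real.norm_eq_abs, abs_of_pos hg, mul_pow,
      mul_pow, div_mul_eq_div_div, div_eq_mul_inv (w.im / (g z ^ 2 * ‖w‖ ^ 2))]
  have hint : Integrable fun t : ℝ => w.im / (g z ^ 2 * ‖w‖ ^ 2) * (‖(t : ℂ) - p‖ ^ 2)⁻¹ :=
    (cau_integrable_sq hpp).const_mul _
  simp only [hfun]
  refine (nu_le_vol (fun t => by positivity) hint).trans (le_of_eq ?_)
  rw [integral_const_mul, cau_integral_sq hpp, hpim]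
  field_simp

theorem norm_Gc_le (hA : A.IsSymm) {η : ℝ} (hη : 0 < η) (he : ∀ x, η ≤ e x) (c : ι → ℝ)
    (x y : ι) : ‖Gc A U g e c x y‖ ≤ 1 / η :=
  norm_Gr_le hA hη (fun x => by rw [Wc_im]; linarith [he x]) x y

omit [DecidableEq ι] in
theorem exists_lower (he : ∀ x, 0 < e x) : ∃ η : ℝ, 0 < η ∧ ∀ x, η ≤ e x := by
  rcases isEmpty_or_nonempty ι with h | h
  · exact ⟨1, one_pos, fun x => (h.false x).elim⟩
  · obtain ⟨x, hx⟩ := Finite.exists_min e
    exact ⟨e x, he x, hx⟩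

theorem bounded_im (hA : A.IsSymm) (he : ∀ x, 0 < e x) :
    ∃ C : ℝ, 0 < C ∧ ∀ (c : ι → ℝ) (x : ι), (Gc A U g e c x x).im ≤ C := by
  obtain ⟨η, hη, h⟩ := exists_lower he
  exact ⟨1 / η, by positivity, fun c x => ((le_abs_self _).trans
    (Complex.abs_im_le_norm _)).trans (norm_Gc_le hA hη h c x x)⟩

/-- weighted one-site averaging: if `Ψ` is dominated along the `z`-line by `Ψ'` then
`E[Im G_zz Ψ] ≤ g_z⁻¹ E Ψ'` -/
theorem site_le (hA : A.IsSymm) (he : ∀ x, 0 < e x) {z : ι} (hg : 0 < g z)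
    {Ψ Ψ' : (ι → ℝ) → ℝ} (hΨm : Measurable Ψ) (hΨ0 : ∀ c, 0 ≤ Ψ c) {M : ℝ}
    (hΨM : ∀ c, Ψ c ≤ M) (hΨi : Integrable Ψ' (mu ι))
    (hle : ∀ c t, Ψ (Function.update c z t) ≤ Ψ' c) :
    ∫ c, (Gc A U g e c z z).im * Ψ c ∂(mu ι) ≤ 1 / g z * ∫ c, Ψ' c ∂(mu ι) := by
  obtain ⟨C, hC0, hC⟩ := bounded_im (U := U) (g := g) hA he
  have hmeas : Measurable fun c => (Gc A U g e c z z).im :=
    Complex.measurable_im.comp (measurable_Gc z z)
  have hint : Integrable (fun c => (Gc A U g e c z z).im * Ψ c) (mu ι) := by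
    refine Integrable.of_bound (hmeas.mul hΨm).aestronglyMeasurable (C * M)
      (Filter.Eventually.of_forall fun c => ?_)
    rw [Real.norm_eq_abs, abs_mul, abs_of_pos (im_pos hA he c z), abs_of_nonneg (hΨ0 c)]
    exact mul_le_mul (hC c z) (hΨM c) (hΨ0 c) hC0.le
  rw [integral_resample z _ hint, ← integral_const_mul]
  refine integral_mono_of_nonneg (Filter.Eventually.of_forall fun c => ?_) (hΨi.const_mul _)
    (Filter.Eventually.of_forall fun c => ?_)
  · exact integral_nonneg fun t => mul_nonneg (im_pos hA he _ z).le (hΨ0 _)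
  · have hnn : ∀ t, 0 ≤ (Gc A U g e (Function.update c z t) z z).im := fun t =>
      (im_pos hA he _ z).le
    have hup : Measurable fun t : ℝ => Function.update c z t :=
      measurable_pi_lambda _ fun i => by
        by_cases hi : i = z
        · subst hi
          simp only [Function.update_self]
          exact measurable_id
        · simp only [Function.update_of_ne hi]
          exact measurable_const
    have h1 : Integrable (fun t => (Gc A U g e (Function.update c z t) z z).im) nu := by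
      refine Integrable.of_bound (hmeas.comp hup).aestronglyMeasurable C
        (Filter.Eventually.of_forall fun t => ?_)
      rw [Real.norm_eq_abs, abs_of_nonneg (hnn t)]
      exact hC _ z
    have hΨ'0 : 0 ≤ Ψ' c := (hΨ0 _).trans (hle c 0)
    calc ∫ t, (Gc A U g e (Function.update c z t) z z).im * Ψ (Function.update c z t) ∂nu
        ≤ ∫ t, (Gc A U g e (Function.update c z t) z z).im * Ψ' c ∂nu := by
          refine integral_mono_of_nonneg (Filter.Eventually.of_forall fun t =>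
            mul_nonneg (hnn t) (hΨ0 _)) (h1.mul_const _) (Filter.Eventually.of_forall fun t => ?_)
          exact mul_le_mul_of_nonneg_left (hle c t) (hnn t)
      _ = (∫ t, (Gc A U g e (Function.update c z t) z z).im ∂nu) * Ψ' c := integral_mul_const _ _
      _ ≤ 1 / g z * Ψ' c := mul_le_mul_of_nonneg_right (one_site hA he c hg) hΨ'0

/-- `S_B = ∑_{x∈B} b_x Im G_xx` -/
noncomputable def Sb (A : Matrix ι ι ℝ) (U g e b : ι → ℝ) (B : Finset ι) (c : ι → ℝ) : ℝ :=
  ∑ y ∈ B, b y * (Gc A U g e c y y).im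

theorem Sb_nonneg (hA : A.IsSymm) (he : ∀ x, 0 < e x) {b : ι → ℝ} (hb : ∀ x, 0 ≤ b x)
    (B : Finset ι) (c : ι → ℝ) : 0 ≤ Sb A U g e b B c :=
  Finset.sum_nonneg fun y _ => mul_nonneg (hb y) (im_pos hA he c y).le

theorem Sb_bounded (hA : A.IsSymm) (he : ∀ x, 0 < e x) {b : ι → ℝ} (hb : ∀ x, 0 ≤ b x)
    (B : Finset ι) : ∃ M : ℝ, ∀ c, Sb A U g e b B c ≤ M := by
  obtain ⟨C, _, hC⟩ := bounded_im (U := U) (g := g) hA he
  exact ⟨∑ y ∈ B, b y * C, fun c => Finset.sum_le_sum fun y _ =>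
    mul_le_mul_of_nonneg_left (hC c y) (hb y)⟩

theorem measurable_Sb (b : ι → ℝ) (B : Finset ι) : Measurable fun c => Sb A U g e b B c := by
  unfold Sb
  exact Finset.measurable_sum _ fun y _ =>
    (Complex.measurable_im.comp (measurable_Gc y y)).const_mul _

theorem integrable_Sb_comp (hA : A.IsSymm) (he : ∀ x, 0 < e x) {b : ι → ℝ} (hb : ∀ x, 0 ≤ b x)
    (B : Finset ι) {Φ : ℝ → ℝ} (hΦ : Monotone Φ) :
    Integrable (fun c => Φ (Sb A U g e b B c)) (mu ι) := by
  obtain ⟨M, hM⟩ := Sb_bounded (U := U) (g := g) hA he hb B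
  refine Integrable.of_bound (hΦ.measurable.comp (measurable_Sb b B)).aestronglyMeasurable
    (max |Φ 0| |Φ M|) (Filter.Eventually.of_forall fun c => ?_)
  have h1 : Φ 0 ≤ Φ (Sb A U g e b B c) := hΦ (Sb_nonneg hA he hb B c)
  have h2 : Φ (Sb A U g e b B c) ≤ Φ M := hΦ (hM c)
  rw [Real.norm_eq_abs]
  exact abs_le_max_abs_abs h1 h2

/-- `E[Im G_zz Φ(S_B)] ≤ g_z⁻¹ E Φ(S_B + 1)` -/
theorem poisson_site (hA : A.IsSymm) (he : ∀ x, 0 < e x) {b : ι → ℝ} (hb : ∀ x, 0 ≤ b x)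
    (hbe : ∀ x, b x ≤ e x) (B : Finset ι) {z : ι} (hg : 0 < g z) {Φ : ℝ → ℝ}
    (hΦ : Monotone Φ) (hΦ0 : ∀ s, 0 ≤ s → 0 ≤ Φ s) :
    ∫ c, (Gc A U g e c z z).im * Φ (Sb A U g e b B c) ∂(mu ι) ≤
      1 / g z * ∫ c, Φ (Sb A U g e b B c + 1) ∂(mu ι) := by
  obtain ⟨M, hM⟩ := Sb_bounded (U := U) (g := g) hA he hb B
  refine site_le hA he hg (Ψ := fun c => Φ (Sb A U g e b B c))
    (Ψ' := fun c => Φ (Sb A U g e b B c + 1)) (hΦ.measurable.comp (measurable_Sb b B))
    (fun c => hΦ0 _ (Sb_nonneg hA he hb B c)) (M := Φ M) (fun c => hΦ (hM c)) ?_ ?_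
  · exact integrable_Sb_comp hA he hb B (Φ := fun s => Φ (s + 1)) (fun s t h => hΦ (by linarith))
  · intro c t
    apply hΦ
    have h := shift_le_one (U := U) (g := g) hA he hb hbe B c z t
    have h2 := (abs_le.1 h).2
    unfold Sb
    linarith

/-- `E[S_B Φ(S_B)] ≤ (∑_{x∈B} b_x/g_x) E Φ(S_B + 1)` : Poisson comparison -/
theorem poisson_comparison (hA : A.IsSymm) (he : ∀ x, 0 < e x) {b : ι → ℝ} (hb : ∀ x, 0 ≤ b x)
    (hbe : ∀ x, b x ≤ e x) (B : Finset ι) (hg : ∀ z ∈ B, 0 < g z) {Φ : ℝ → ℝ}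
    (hΦ : Monotone Φ) (hΦ0 : ∀ s, 0 ≤ s → 0 ≤ Φ s) :
    ∫ c, Sb A U g e b B c * Φ (Sb A U g e b B c) ∂(mu ι) ≤
      (∑ z ∈ B, b z / g z) * ∫ c, Φ (Sb A U g e b B c + 1) ∂(mu ι) := by
  obtain ⟨C, hC0, hC⟩ := bounded_im (U := U) (g := g) hA he
  obtain ⟨M, hM⟩ := Sb_bounded (U := U) (g := g) hA he hb B
  have h1 : ∀ c, Sb A U g e b B c * Φ (Sb A U g e b B c) =
      ∑ z ∈ B, b z * ((Gc A U g e c z z).im * Φ (Sb A U g e b B c)) := by
    intro c
    conv_lhs => rw [Sb]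
    rw [Finset.sum_mul]
    refine Finset.sum_congr rfl fun z _ => ?_
    unfold Sb
    ring
  have hint : ∀ z ∈ B, Integrable
      (fun c => b z * ((Gc A U g e c z z).im * Φ (Sb A U g e b B c))) (mu ι) := by
    intro z _
    refine Integrable.const_mul ?_ _
    refine Integrable.of_bound (((Complex.measurable_im.comp (measurable_Gc z z)).mul
      (hΦ.measurable.comp (measurable_Sb b B))).aestronglyMeasurable) (C * Φ M)
      (Filter.Eventually.of_forall fun c => ?_)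
    have h0 := hΦ0 _ (Sb_nonneg (U := U) (g := g) hA he hb B c)
    rw [Real.norm_eq_abs, abs_mul, abs_of_nonneg h0]
    refine mul_le_mul ?_ (hΦ (hM c)) h0 hC0.le
    rw [abs_of_pos (im_pos hA he c z)]
    exact hC c z
  simp only [h1]
  rw [integral_finsetSum B hint, Finset.sum_mul]
  refine Finset.sum_le_sum fun z hz => ?_
  rw [integral_const_mul]
  have h2 := poisson_site (U := U) hA he hb hbe B (hg z hz) hΦ hΦ0
  calc b z * ∫ c, (Gc A U g e c z z).im * Φ (Sb A U g e b B c) ∂(mu ι)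
      ≤ b z * (1 / g z * ∫ c, Φ (Sb A U g e b B c + 1) ∂(mu ι)) :=
        mul_le_mul_of_nonneg_left h2 (hb z)
    _ = b z / g z * ∫ c, Φ (Sb A U g e b B c + 1) ∂(mu ι) := by ring

/-- first moment -/
theorem Sb_moment_one (hA : A.IsSymm) (he : ∀ x, 0 < e x) {b : ι → ℝ} (hb : ∀ x, 0 ≤ b x)
    (hbe : ∀ x, b x ≤ e x) (B : Finset ι) (hg : ∀ z ∈ B, 0 < g z) :
    ∫ c, Sb A U g e b B c ∂(mu ι) ≤ ∑ z ∈ B, b z / g z := by
  have h := poisson_comparison (U := U) hA he hb hbe B hg (Φ := fun _ => (1 : ℝ))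
    (fun _ _ _ => le_rfl) (fun _ _ => zero_le_one)
  simpa using h

/-- second moment -/
theorem Sb_moment_two (hA : A.IsSymm) (he : ∀ x, 0 < e x) {b : ι → ℝ} (hb : ∀ x, 0 ≤ b x)
    (hbe : ∀ x, b x ≤ e x) (B : Finset ι) (hg : ∀ z ∈ B, 0 < g z) {N : ℝ}
    (hN : ∑ z ∈ B, b z / g z ≤ N) :
    ∫ c, Sb A U g e b B c ^ 2 ∂(mu ι) ≤ N * (N + 1) := by
  have hN0 : 0 ≤ ∑ z ∈ B, b z / g z :=
    Finset.sum_nonneg fun z hz => div_nonneg (hb z) (hg z hz).le
  have h := poisson_comparison (U := U) hA he hb hbe B hg (Φ := fun s => s)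
    (fun _ _ h => h) (fun _ h => h)
  have i1 : Integrable (fun c => Sb A U g e b B c) (mu ι) :=
    integrable_Sb_comp hA he hb B (Φ := fun s => s) (fun _ _ h => h)
  have h1 := Sb_moment_one (U := U) hA he hb hbe B hg
  rw [integral_add i1 (integrable_const _)] at h
  simp only [integral_const, smul_eq_mul, mul_one, probReal_univ] at h
  have h2 : ∀ c, Sb A U g e b B c ^ 2 = Sb A U g e b B c * Sb A U g e b B c := fun c => sq _
  simp only [h2]
  refine h.trans ?_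
  have h3 : 0 ≤ ∫ c, Sb A U g e b B c ∂(mu ι) := integral_nonneg fun c => Sb_nonneg hA he hb B c
  calc (∑ z ∈ B, b z / g z) * (∫ c, Sb A U g e b B c ∂(mu ι) + 1)
      ≤ N * (N + 1) := mul_le_mul hN (by linarith) (by linarith) (hN0.trans hN)

/-- third moment -/
theorem Sb_moment_three (hA : A.IsSymm) (he : ∀ x, 0 < e x) {b : ι → ℝ} (hb : ∀ x, 0 ≤ b x)
    (hbe : ∀ x, b x ≤ e x) (B : Finset ι) (hg : ∀ z ∈ B, 0 < g z) {N : ℝ}
    (hN : ∑ z ∈ B, b z / g z ≤ N) :
    ∫ c, Sb A U g e b B c ^ 3 ∂(mu ι) ≤ N * (N ^ 2 + 3 * N + 1) := by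
  have hN0 : 0 ≤ ∑ z ∈ B, b z / g z :=
    Finset.sum_nonneg fun z hz => div_nonneg (hb z) (hg z hz).le
  have hmono : Monotone fun s : ℝ => (max s 0) ^ 2 := fun s t h =>
    pow_le_pow_left₀ (le_max_right _ _) (max_le_max_right 0 h) 2
  have h := poisson_comparison (U := U) hA he hb hbe B hg (Φ := fun s => (max s 0) ^ 2)
    hmono (fun _ _ => by positivity)
  have i1 : Integrable (fun c => Sb A U g e b B c) (mu ι) :=
    integrable_Sb_comp hA he hb B (Φ := fun s => s) (fun _ _ h => h)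
  have hnn := fun c => Sb_nonneg (U := U) (g := g) hA he hb B c
  have i2 : Integrable (fun c => Sb A U g e b B c ^ 2) (mu ι) := by
    have := integrable_Sb_comp (U := U) (g := g) hA he hb B (Φ := fun s => (max s 0) ^ 2) hmono
    refine this.congr (Filter.Eventually.of_forall fun c => ?_)
    simp only [max_eq_left (hnn c)]
  have h1 := Sb_moment_one (U := U) hA he hb hbe B hg
  have h2 := Sb_moment_two (U := U) hA he hb hbe B hg hN
  have e1 : ∀ c, Sb A U g e b B c * (max (Sb A U g e b B c) 0) ^ 2 = Sb A U g e b B c ^ 3 := by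
    intro c
    rw [max_eq_left (hnn c)]; ring
  have e2 : ∀ c, (max (Sb A U g e b B c + 1) 0) ^ 2 =
      Sb A U g e b B c ^ 2 + (2 * Sb A U g e b B c + 1) := by
    intro c
    rw [max_eq_left (by linarith [hnn c])]; ring
  simp only [e1, e2] at h
  have e3 : ∫ c, (Sb A U g e b B c ^ 2 + (2 * Sb A U g e b B c + 1)) ∂(mu ι) =
      ∫ c, Sb A U g e b B c ^ 2 ∂(mu ι) + (2 * ∫ c, Sb A U g e b B c ∂(mu ι) +
        ∫ _c : ι → ℝ, (1 : ℝ) ∂(mu ι)) := by
    have i3 : Integrable (fun c => 2 * Sb A U g e b B c + 1) (mu ι) :=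
      (i1.const_mul 2).add (integrable_const 1)
    rw [integral_add i2 i3, integral_add (i1.const_mul 2) (integrable_const 1),
      integral_const_mul]
  rw [e3] at h
  simp only [integral_const, smul_eq_mul, mul_one, probReal_univ] at h
  refine h.trans ?_
  have h3 : 0 ≤ ∫ c, Sb A U g e b B c ∂(mu ι) := integral_nonneg hnn
  have h4 : 0 ≤ ∫ c, Sb A U g e b B c ^ 2 ∂(mu ι) := integral_nonneg fun c => sq_nonneg _
  calc (∑ z ∈ B, b z / g z) * (∫ c, Sb A U g e b B c ^ 2 ∂(mu ι) +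
        (2 * ∫ c, Sb A U g e b B c ∂(mu ι) + 1))
      ≤ N * (N * (N + 1) + (2 * N + 1)) :=
        mul_le_mul hN (by linarith) (by linarith) (hN0.trans hN)
    _ = N * (N ^ 2 + 3 * N + 1) := by ring

end P365L.Poi
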